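import Vale.Agent.H27.TW.Lang

/-!
# Counting crossing sequences
-/

namespace Vale.Agent.H27.TW

variable {h : ℕ}

/-- the hard words -/
def wrd (s : List (Finset (Fin h))) : List (Letter h) :=
  s.flatMap fun S => [Sum.inl S, Sum.inr Sᶜ]

theorem wrd_cons (A : Finset (Fin h)) (s : List (Finset (Fin h))) :
    wrd (A :: s) = Sum.inl A :: Sum.inr Aᶜ :: wrd s := by
  simp [wrd]

theorem wrd_append (s t : List (Finset (Fin h))) : wrd (s ++ t) = wrd s ++ wrd t := by
  simp [wrd]

theorem length_wrd (s : List (Finset (Fin h))) : (wrd s).length = 2 * s.length := by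
  induction s with
  | nil => simp [wrd]
  | cons A s ih => rw [wrd_cons]; simp only [List.length_cons, ih]; ring

theorem not_hasPair_wrd (s : List (Finset (Fin h))) : ¬ HasPair (wrd s) := by
  rintro ⟨u, v, S, T, hw, i, hS, hT⟩
  have key : ∀ (s : List (Finset (Fin h))) (u : List (Letter h)),
      wrd s = u ++ Sum.inl S :: Sum.inr T :: v → T = Sᶜ := by
    intro s
    induction s with
    | nil => intro u hu; simp [wrd] at hu
    | cons A s ih =>
      intro u hu
      rw [wrd_cons] at hu
      rcases u with _ | ⟨x, _ | ⟨y, u⟩⟩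
      · simp only [List.nil_append, List.cons.injEq, Sum.inl.injEq, Sum.inr.injEq] at hu
        rw [← hu.1, ← hu.2.1]
      · simp only [List.cons_append, List.nil_append, List.cons.injEq, reduceCtorEq, false_and,
          and_false] at hu
      · simp only [List.cons_append, List.cons.injEq] at hu
        exact ih u hu.2.2
  have hT' := key s u hw
  rw [hT'] at hT
  exact (Finset.mem_compl.1 hT) hS

section decode
variable {Q : Type}

theorem decode_one {a b : List Q} {r s : List (Option Q)}
    (hab : a.map some ++ none :: r = b.map some ++ none :: s) : a = b ∧ r = s := by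
  induction a generalizing b with
  | nil =>
    cases b with
    | nil => simpa using hab
    | cons y b => simp at hab
  | cons x a ih =>
    cases b with
    | nil => simp at hab
    | cons y b =>
      simp only [List.map_cons, List.cons_append, List.cons.injEq, Option.some.injEq] at hab
      obtain ⟨h1, h2⟩ := ih hab.2
      exact ⟨by rw [hab.1, h1], h2⟩

theorem decode_all (L : List ℕ) (f g : ℕ → List Q) {r s : List (Option Q)}
    (hfg : (L.flatMap fun j => (f j).map some ++ [none]) ++ r =
      (L.flatMap fun j => (g j).map some ++ [none]) ++ s) : ∀ j ∈ L, f j = g j := by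
  induction L with
  | nil => simp
  | cons a L ih =>
    simp only [List.flatMap_cons, List.append_assoc, List.singleton_append] at hfg
    obtain ⟨h1, h2⟩ := decode_one hfg
    intro j hj
    rcases List.mem_cons.1 hj with rfl | hj
    · exact h1
    · exact ih h2 j hj

end decode

variable {Q : Type}

/-- the code of a computation -/
def code (m : ℕ) (l : List (Q × ℕ)) : List (Option Q) :=
  (List.range m).flatMap fun j => (cs (2 * j + 1) l).map some ++ [none]

theorem length_code {M : TwoNFA (Letter h) Q} {w : List (Letter h)} (m : ℕ) (l : List (Q × ℕ))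
    (c : Q × ℕ) (hl : Path M w (c :: l)) : (code m (c :: l)).length ≤ l.length + m := by
  have h1 : (code m (c :: l)).length =
      ∑ j ∈ Finset.range m, ((cs (2 * j + 1) (c :: l)).length + 1) := by
    rw [code, List.length_flatMap]
    simp only [List.length_append, List.length_map, List.length_singleton]
    rw [Finset.sum_range]
    rw [← List.sum_ofFn]
    congr 1
    apply List.ext_getElem <;> simp
  rw [h1, Finset.sum_add_distrib]
  simp only [Finset.sum_const, Finset.card_range, smul_eq_mul, mul_one]
  have h2 : ∑ j ∈ Finset.range m, (cs (2 * j + 1) (c :: l)).length =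
      ∑ b ∈ (Finset.range m).image (fun j => 2 * j + 1), (cs b (c :: l)).length := by
    rw [Finset.sum_image]
    intro x _ y _ hxy
    simp only at hxy
    omega
  rw [h2]
  have := sum_cs_le ((Finset.range m).image (fun j => 2 * j + 1)) l c hl
  omega

theorem count_bound [Fintype Q] (B : TwoNFA (Letter h) Q)
    (hB : ∀ w, B.Accepts w ↔ ¬ (src h).Accepts w) (T C : ℕ)
    (hT : ∀ w, B.Accepts w → ∃ t ≤ T * w.length + C, B.AcceptsIn w t) (m : ℕ) :
    2 ^ (h * m) ≤ (Fintype.card Q + 1) ^ ((2 * T + 1) * m + C) := by
  classical
  set N := (2 * T + 1) * m + C with hN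
  -- choose computations
  have hex : ∀ s : Fin m → Finset (Fin h), ∃ l : List (Q × ℕ), l.length ≤ 2 * T * m + C ∧
      Path B (wrd (List.ofFn s)) ((B.start, 0) :: l) := by
    intro s
    have h1 : B.Accepts (wrd (List.ofFn s)) := by
      rw [hB, src_accepts_iff]; exact not_hasPair_wrd _
    obtain ⟨t, ht, d, hd, hr⟩ := hT _ h1
    obtain ⟨l, hl, hp⟩ := exists_path hr hd
    refine ⟨l, ?_, hp⟩
    rw [length_wrd, List.length_ofFn] at ht
    rw [hl]
    calc t ≤ T * (2 * m) + C := ht
      _ = 2 * T * m + C := by ring
  choose l hl hp using hex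
  let F : (Fin m → Finset (Fin h)) → List.Vector (Option Q) N := fun s =>
    ⟨code m ((B.start, 0) :: l s) ++
      List.replicate (N - (code m ((B.start, 0) :: l s)).length) none, by
      have h1 := length_code m (l s) _ (hp s)
      have h2 := hl s
      have h3 : N = 2 * T * m + C + m := by rw [hN]; ring
      simp only [List.length_append, List.length_replicate]
      omega⟩
  have hF : Function.Injective F := by
    intro s t hst
    have h1 : code m ((B.start, 0) :: l s) ++ _ = code m ((B.start, 0) :: l t) ++ _ :=
      congrArg Subtype.val hst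
    have h2 := decode_all (List.range m) _ _ h1
    by_contra hne
    obtain ⟨j, hj⟩ := Function.ne_iff.1 hne
    have hcs := h2 j (List.mem_range.2 j.2)
    -- decompositions
    have key : ∀ (s : Fin m → Finset (Fin h)), wrd (List.ofFn s) =
        (wrd ((List.ofFn s).take j) ++ [Sum.inl (s j)]) ++
          (Sum.inr (s j)ᶜ :: wrd ((List.ofFn s).drop (j + 1))) ∧
        (wrd ((List.ofFn s).take j) ++ [Sum.inl (s j)] : List (Letter h)).length =
          2 * (j : ℕ) + 1 := by
      intro s
      have hjl : (j : ℕ) < (List.ofFn s).length := by simp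
      have e0 : List.ofFn s = (List.ofFn s).take j ++ (s j :: (List.ofFn s).drop (j + 1)) := by
        conv_lhs => rw [← List.take_append_drop j (List.ofFn s)]
        rw [List.drop_eq_getElem_cons hjl]
        simp
      constructor
      · conv_lhs => rw [e0]
        rw [wrd_append, wrd_cons]
        simp
      · simp only [List.length_append, length_wrd, List.length_take, List.length_ofFn,
          List.length_singleton]
        have := j.2
        omega
    have main : ∀ (s t : Fin m → Finset (Fin h)),
        cs (2 * (j : ℕ) + 1) ((B.start, 0) :: l s) = cs (2 * (j : ℕ) + 1) ((B.start, 0) :: l t) →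
        s j ⊆ t j := by
      intro s t hcs i hi
      by_contra hit
      obtain ⟨es, ls⟩ := key s
      obtain ⟨et, lt⟩ := key t
      have ps := hp s
      have pt := hp t
      rw [es] at ps
      rw [et] at pt
      have := cut_paste B (ls.trans lt.symm) ps pt (by rw [ls]; exact hcs)
      rw [hB, src_accepts_iff] at this
      apply this
      refine ⟨wrd ((List.ofFn s).take j), wrd ((List.ofFn t).drop (j + 1)), s j, (t j)ᶜ, ?_,
        i, hi, Finset.mem_compl.2 hit⟩
      simp
    exact hj (Finset.Subset.antisymm (main s t hcs) (main t s hcs.symm))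
  have hcard := Fintype.card_le_of_injective F hF
  rw [card_vector, Fintype.card_option] at hcard
  simp only [Fintype.card_pi, Fintype.card_finset, Fintype.card_fin, Finset.prod_const,
    Finset.card_univ] at hcard
  rwa [← pow_mul] at hcard

theorem bernoulli_nat (b m : ℕ) : b ^ m * (b + m) ≤ b * (b + 1) ^ m := by
  induction m with
  | zero => simp
  | succ m ih =>
    calc b ^ (m + 1) * (b + (m + 1)) ≤ (b ^ m * (b + m)) * (b + 1) := by
          have : b ^ (m + 1) * (b + (m + 1)) + b ^ m * m = (b ^ m * (b + m)) * (b + 1) := by ring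
          omega
      _ ≤ (b * (b + 1) ^ m) * (b + 1) := Nat.mul_le_mul_right _ ih
      _ = b * (b + 1) ^ (m + 1) := by ring

theorem le_of_pow_le {a b D : ℕ} (hb : 0 < b) (hab : ∀ m, a ^ m ≤ b ^ m * D) : a ≤ b := by
  by_contra hlt
  have h1 : b + 1 ≤ a := by omega
  have h2 := bernoulli_nat b (b * D)
  have h3 : (b + 1) ^ (b * D) ≤ b ^ (b * D) * D :=
    (Nat.pow_le_pow_left h1 _).trans (hab _)
  have h4 : b ^ (b * D) * (b + b * D) ≤ b ^ (b * D) * (b * D) := by
    calc b ^ (b * D) * (b + b * D) ≤ b * (b + 1) ^ (b * D) := h2
      _ ≤ b * (b ^ (b * D) * D) := Nat.mul_le_mul_left _ h3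
      _ = b ^ (b * D) * (b * D) := by ring
  have h5 := Nat.le_of_mul_le_mul_left h4 (Nat.pow_pos hb)
  omega

theorem size_bound [Fintype Q] (B : TwoNFA (Letter h) Q)
    (hB : ∀ w, B.Accepts w ↔ ¬ (src h).Accepts w) (T C : ℕ)
    (hT : ∀ w, B.Accepts w → ∃ t ≤ T * w.length + C, B.AcceptsIn w t) :
    2 ^ h ≤ (Fintype.card Q + 1) ^ (2 * T + 1) := by
  refine le_of_pow_le (D := (Fintype.card Q + 1) ^ C) (by positivity) fun m => ?_
  have := count_bound B hB T C hT m
  rwa [pow_add, pow_mul, pow_mul] at this

end Vale.Agent.H27.TW
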