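import Vale.Agent.H27.TW.Defs

/-!
# Crossing sequences and cut-and-paste
-/

namespace Vale.Agent.H27.TW

variable {α Q : Type}

/-- `Path M w l`: the list `l` of configurations is a computation ending in an accepting state. -/
def Path (M : TwoNFA α Q) (w : List α) : List (Q × ℕ) → Prop
  | [] => False
  | [c] => c.1 ∈ M.accept
  | c :: d :: l => M.Step w c d ∧ Path M w (d :: l)

theorem exists_path {M : TwoNFA α Q} {w : List α} {c d : Q × ℕ} {t : ℕ}
    (h : M.Run w c d t) (hd : d.1 ∈ M.accept) :
    ∃ l : List (Q × ℕ), l.length = t ∧ Path M w (c :: l) := by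
  induction h with
  | refl c => exact ⟨[], rfl, hd⟩
  | cons hs _ ih =>
    obtain ⟨l, hl, hp⟩ := ih hd
    exact ⟨_ :: l, by simp [hl], hs, hp⟩

theorem accepts_of_path {M : TwoNFA α Q} {w : List α} {l : List (Q × ℕ)} {c : Q × ℕ}
    (h : Path M w (c :: l)) : ∃ d t, d.1 ∈ M.accept ∧ M.Run w c d t := by
  induction l generalizing c with
  | nil => exact ⟨c, 0, h, .refl c⟩
  | cons d l ih =>
    obtain ⟨e, t, h1, h2⟩ := ih h.2
    exact ⟨e, t + 1, h1, .cons h.1 h2⟩

/-- the crossing sequence at the boundary between cells `b` and `b+1` -/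
def cs (b : ℕ) : List (Q × ℕ) → List Q
  | [] => []
  | [_] => []
  | c :: d :: l => (if (c.2 ≤ b ∧ b < d.2) ∨ (d.2 ≤ b ∧ b < c.2) then [d.1] else []) ++ cs b (d :: l)

theorem cs_cons_cross {b : ℕ} {c d : Q × ℕ} {l : List (Q × ℕ)}
    (h : (c.2 ≤ b ∧ b < d.2) ∨ (d.2 ≤ b ∧ b < c.2)) :
    cs b (c :: d :: l) = d.1 :: cs b (d :: l) := by
  simp [cs, h]

theorem cs_cons_stay {b : ℕ} {c d : Q × ℕ} {l : List (Q × ℕ)}
    (h : ¬ ((c.2 ≤ b ∧ b < d.2) ∨ (d.2 ≤ b ∧ b < c.2))) :
    cs b (c :: d :: l) = cs b (d :: l) := by
  simp [cs, h]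

theorem step_dist {M : TwoNFA α Q} {w : List α} {c d : Q × ℕ} (h : M.Step w c d) :
    c.2 ≤ d.2 + 1 ∧ d.2 ≤ c.2 + 1 := by
  rcases h with ⟨-, h⟩ | ⟨-, h⟩ | ⟨-, h, -⟩ <;> omega

/-- the total length of the crossing sequences at distinct boundaries is at most the time -/
theorem sum_cs_le {M : TwoNFA α Q} {w : List α} (B : Finset ℕ) (l : List (Q × ℕ)) (c : Q × ℕ)
    (h : Path M w (c :: l)) : ∑ b ∈ B, (cs b (c :: l)).length ≤ l.length := by
  classical
  induction l generalizing c with
  | nil => simp [cs]
  | cons d l ih =>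
    have h1 := ih d h.2
    have h2 := step_dist h.1
    have h3 : ∀ b ∈ B, (cs b (c :: d :: l)).length =
        (if b = min c.2 d.2 ∧ c.2 ≠ d.2 then 1 else 0) + (cs b (d :: l)).length := by
      intro b _
      by_cases hc : (c.2 ≤ b ∧ b < d.2) ∨ (d.2 ≤ b ∧ b < c.2)
      · rw [cs_cons_cross hc, if_pos (by omega)]
        simp [add_comm]
      · rw [cs_cons_stay hc, if_neg (by omega), zero_add]
    rw [Finset.sum_congr rfl h3, Finset.sum_add_distrib]
    have h4 : ∑ b ∈ B, (if b = min c.2 d.2 ∧ c.2 ≠ d.2 then 1 else 0) ≤ 1 := by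
      by_cases hcd : c.2 ≠ d.2
      · simp only [hcd, ne_eq, not_false_eq_true, and_true]
        rw [Finset.sum_ite_eq' B (min c.2 d.2) (fun _ => 1)]
        split_ifs <;> simp
      · simp [hcd]
    simp only [List.length_cons]
    omega

theorem tape_append_left {u v v' : List α} {i : ℕ} (h : i ≤ u.length) :
    tape (u ++ v) i = tape (u ++ v') i := by
  cases i with
  | zero => rfl
  | succ i =>
    simp only [tape]
    rw [List.getElem?_append_left (by omega), List.getElem?_append_left (by omega)]

theorem tape_append_right {u u' v : List α} {i : ℕ} (hu : u.length = u'.length)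
    (h : u.length < i) : tape (u' ++ v) i = tape (u ++ v) i := by
  cases i with
  | zero => omega
  | succ i =>
    simp only [tape]
    rw [List.getElem?_append_right (by omega), List.getElem?_append_right (by omega), hu]

/-- Cut and paste: in left mode follow the first computation, in right mode the second one. -/
theorem cut_paste_aux (M : TwoNFA α Q) {u v u' v' : List α} (hu : u.length = u'.length) (n : ℕ) :
    ∀ (l l' : List (Q × ℕ)) (c c' : Q × ℕ), l.length + l'.length ≤ n →
      Path M (u ++ v) (c :: l) → Path M (u' ++ v') (c' :: l') →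
      cs u.length (c :: l) = cs u.length (c' :: l') →
      ((c.2 ≤ u.length ∧ c'.2 ≤ u.length → ∃ m, Path M (u ++ v') (c :: m)) ∧
       (u.length < c.2 ∧ u.length < c'.2 → ∃ m, Path M (u ++ v') (c' :: m))) := by
  induction n using Nat.strong_induction_on with
  | _ n ih =>
  intro l l' c c' hn hl hl' hcs
  set b := u.length with hb
  constructor
  · rintro ⟨hc, hc'⟩
    cases l with
    | nil => exact ⟨[], hl⟩
    | cons d l =>
      have hst := hl.1
      have hst2 := step_dist hst
      by_cases hd : d.2 ≤ b
      · -- stays on the left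
        have hnc : ¬ ((c.2 ≤ b ∧ b < d.2) ∨ (d.2 ≤ b ∧ b < c.2)) := by omega
        rw [cs_cons_stay hnc] at hcs
        have hlt : l.length + l'.length < n := by simp only [List.length_cons] at hn; omega
        obtain ⟨m, hm⟩ := (ih _ hlt l l' d c' le_rfl hl.2 hl' hcs).1 ⟨hd, hc'⟩
        refine ⟨d :: m, ?_, hm⟩
        have ht : tape (u ++ v) c.2 = tape (u ++ v') c.2 := tape_append_left hc
        rcases hst with h | h | h
        · exact Or.inl (by rw [← ht]; exact h)
        · exact Or.inr (Or.inl (by rw [← ht]; exact h))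
        · refine Or.inr (Or.inr ⟨by rw [← ht]; exact h.1, h.2.1, ?_⟩)
          simp only [List.length_append]; omega
      · -- crosses to the right
        have hcr : (c.2 ≤ b ∧ b < d.2) ∨ (d.2 ≤ b ∧ b < c.2) := by omega
        rw [cs_cons_cross hcr] at hcs
        cases l' with
        | nil => simp [cs] at hcs
        | cons d' l' =>
          by_cases hd' : d'.2 ≤ b
          · -- skip a step of the second computation
            have hnc : ¬ ((c'.2 ≤ b ∧ b < d'.2) ∨ (d'.2 ≤ b ∧ b < c'.2)) := by omega
            rw [cs_cons_stay hnc, ← cs_cons_cross hcr] at hcs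
            have hlt : (d :: l).length + l'.length < n := by
              simp only [List.length_cons] at hn ⊢; omega
            exact (ih _ hlt (d :: l) l' c d' le_rfl hl hl'.2 hcs).1 ⟨hc, hd'⟩
          · have hcr' : (c'.2 ≤ b ∧ b < d'.2) ∨ (d'.2 ≤ b ∧ b < c'.2) := by omega
            rw [cs_cons_cross hcr'] at hcs
            have hst' := step_dist hl'.1
            injection hcs with hs hcs
            have hlt : l.length + l'.length < n := by
              simp only [List.length_cons] at hn; omega
            obtain ⟨m, hm⟩ := (ih _ hlt l l' d d' le_rfl hl.2 hl'.2 hcs).2 ⟨by omega, by omega⟩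
            have hdd : d = d' := by
              apply Prod.ext hs
              omega
            refine ⟨d' :: m, ?_, hm⟩
            have ht : tape (u ++ v) c.2 = tape (u ++ v') c.2 := tape_append_left hc
            rw [← hdd]
            rcases hst with h | h | h
            · omega
            · omega
            · refine Or.inr (Or.inr ⟨by rw [← ht]; exact h.1, h.2.1, ?_⟩)
              simp only [List.length_append]; omega
  · rintro ⟨hc, hc'⟩
    cases l' with
    | nil => exact ⟨[], hl'⟩
    | cons d' l' =>
      have hst := hl'.1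
      have hst2 := step_dist hst
      have ht : tape (u' ++ v') c'.2 = tape (u ++ v') c'.2 := tape_append_right hu hc'
      have hlen : (u ++ v').length = (u' ++ v').length := by
        simp only [List.length_append]; omega
      have hstep : M.Step (u ++ v') c' d' := by
        rcases hst with h | h | h
        · exact Or.inl (by rw [← ht]; exact h)
        · exact Or.inr (Or.inl (by rw [← ht]; exact h))
        · exact Or.inr (Or.inr ⟨by rw [← ht]; exact h.1, h.2.1, by rw [hlen]; exact h.2.2⟩)
      by_cases hd : b < d'.2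
      · have hnc : ¬ ((c'.2 ≤ b ∧ b < d'.2) ∨ (d'.2 ≤ b ∧ b < c'.2)) := by omega
        rw [cs_cons_stay hnc] at hcs
        have hlt : l.length + l'.length < n := by simp only [List.length_cons] at hn; omega
        obtain ⟨m, hm⟩ := (ih _ hlt l l' c d' le_rfl hl hl'.2 hcs).2 ⟨hc, hd⟩
        exact ⟨d' :: m, hstep, hm⟩
      · have hcr : (c'.2 ≤ b ∧ b < d'.2) ∨ (d'.2 ≤ b ∧ b < c'.2) := by omega
        rw [cs_cons_cross hcr] at hcs
        cases l with
        | nil => simp [cs] at hcs
        | cons d l =>
          by_cases hd2 : b < d.2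
          · have hnc : ¬ ((c.2 ≤ b ∧ b < d.2) ∨ (d.2 ≤ b ∧ b < c.2)) := by omega
            rw [cs_cons_stay hnc, ← cs_cons_cross hcr] at hcs
            have hlt : l.length + (d' :: l').length < n := by
              simp only [List.length_cons] at hn ⊢; omega
            exact (ih _ hlt l (d' :: l') d c' le_rfl hl.2 hl' hcs).2 ⟨hd2, hc'⟩
          · have hcr' : (c.2 ≤ b ∧ b < d.2) ∨ (d.2 ≤ b ∧ b < c.2) := by omega
            rw [cs_cons_cross hcr'] at hcs
            have hst' := step_dist hl.1
            injection hcs with hs hcs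
            have hlt : l.length + l'.length < n := by
              simp only [List.length_cons] at hn; omega
            obtain ⟨m, hm⟩ := (ih _ hlt l l' d d' le_rfl hl.2 hl'.2 hcs).1 ⟨by omega, by omega⟩
            have hdd : d = d' := by
              apply Prod.ext hs
              omega
            refine ⟨d :: m, ?_, hm⟩
            rw [hdd]
            exact hstep

theorem cut_paste (M : TwoNFA α Q) {u v u' v' : List α} (hu : u.length = u'.length)
    {l l' : List (Q × ℕ)} (hl : Path M (u ++ v) ((M.start, 0) :: l))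
    (hl' : Path M (u' ++ v') ((M.start, 0) :: l'))
    (hcs : cs u.length ((M.start, 0) :: l) = cs u.length ((M.start, 0) :: l')) :
    M.Accepts (u ++ v') := by
  obtain ⟨m, hm⟩ := (cut_paste_aux M hu _ l l' _ _ le_rfl hl hl' hcs).1
    ⟨Nat.zero_le _, Nat.zero_le _⟩
  obtain ⟨d, t, h1, h2⟩ := accepts_of_path hm
  exact ⟨t, d, h1, h2⟩

end Vale.Agent.H27.TW
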