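import Mathlib

/-!
# Two-way nondeterministic finite automata with end markers
-/

namespace Vale.Agent.H27.TW

/-- Symbols on the tape: the left end marker, an input letter, the right end marker. -/
inductive TapeSym (α : Type) : Type
  | lmark : TapeSym α
  | letter : α → TapeSym α
  | rmark : TapeSym α

/-- Head moves: left, stay, right. -/
inductive Dir : Type
  | left : Dir
  | stay : Dir
  | right : Dir

/-- A two-way nondeterministic finite automaton with input alphabet `α` and state set `Q`. -/
structure TwoNFA (α Q : Type) where
  /-- the initial state -/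
  start : Q
  /-- the accepting states -/
  accept : Set Q
  /-- the transitions available in a state scanning a symbol -/
  step : Q → TapeSym α → Set (Q × Dir)

/-- The tape content: cell `0` holds the left marker, cells `1, …, |w|` hold `w`, and
cell `|w|+1` holds the right marker. -/
def tape {α : Type} (w : List α) : ℕ → TapeSym α
  | 0 => .lmark
  | i + 1 => (w[i]?).elim .rmark .letter

variable {α Q : Type}

/-- One step of `M` on input `w`, between configurations (state, head position);
the head never leaves the cells `0, …, |w|+1`. -/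
def TwoNFA.Step (M : TwoNFA α Q) (w : List α) (c d : Q × ℕ) : Prop :=
  ((d.1, Dir.left) ∈ M.step c.1 (tape w c.2) ∧ c.2 = d.2 + 1) ∨
  ((d.1, Dir.stay) ∈ M.step c.1 (tape w c.2) ∧ d.2 = c.2) ∨
  ((d.1, Dir.right) ∈ M.step c.1 (tape w c.2) ∧ d.2 = c.2 + 1 ∧ d.2 ≤ w.length + 1)

/-- `M.Run w c d t`: there is a computation of exactly `t` steps from `c` to `d` on input `w`. -/
inductive TwoNFA.Run (M : TwoNFA α Q) (w : List α) : Q × ℕ → Q × ℕ → ℕ → Prop
  | refl (c : Q × ℕ) : TwoNFA.Run M w c c 0
  | cons {c d e : Q × ℕ} {t : ℕ} : M.Step w c d → TwoNFA.Run M w d e t →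
      TwoNFA.Run M w c e (t + 1)

/-- `M` accepts `w` by a computation of `t` steps: the computation starts in the initial state on
the left end marker and reaches an accepting state. -/
def TwoNFA.AcceptsIn (M : TwoNFA α Q) (w : List α) (t : ℕ) : Prop :=
  ∃ d : Q × ℕ, d.1 ∈ M.accept ∧ M.Run w (M.start, 0) d t

/-- `M` accepts `w`. -/
def TwoNFA.Accepts (M : TwoNFA α Q) (w : List α) : Prop := ∃ t, M.AcceptsIn w t

/-- `M` is one-way: it never moves its head to the left. -/
def TwoNFA.OneWay (M : TwoNFA α Q) : Prop :=
  ∀ (p : Q) (s : TapeSym α) (q : Q), (q, Dir.left) ∉ M.step p s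

/-- `M` is deterministic: at most one transition for each state and symbol. -/
def TwoNFA.Deterministic (M : TwoNFA α Q) : Prop :=
  ∀ (p : Q) (s : TapeSym α), (M.step p s).Subsingleton

end Vale.Agent.H27.TW
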