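import Vale.Agent.H27.TW.Count

/-!
# Deterministic two-way automata
-/

namespace Vale.Agent.H27.TW

variable {α Q : Type}

/-- moves that do not leave the tape -/
def Valid (d : Dir) (s : TapeSym α) : Prop :=
  match d, s with
  | .left, .lmark => False
  | .right, .rmark => False
  | _, _ => True

/-- the complementary automaton of a halting deterministic automaton -/
def compl (B : TwoNFA α Q) : TwoNFA α (Option Q) where
  start := some B.start
  accept := {none}
  step p s := match p with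
    | none => ∅
    | some p => {x | p ∉ B.accept ∧
        ((∃ q d, x = (some q, d) ∧ (q, d) ∈ B.step p s ∧ Valid d s) ∨
          (x = (none, Dir.stay) ∧ ∀ q d, (q, d) ∈ B.step p s → ¬ Valid d s))}

theorem tape_zero (w : List α) : tape w 0 = .lmark := rfl

theorem tape_ne_lmark {w : List α} {i : ℕ} : tape w (i + 1) ≠ .lmark := by
  simp only [tape]
  rcases w[i]? with _ | x <;> simp

theorem tape_eq_rmark_iff {w : List α} {i : ℕ} : tape w i = .rmark ↔ w.length + 1 ≤ i := by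
  cases i with
  | zero => simp [tape]
  | succ i =>
    simp only [tape]
    by_cases hi : i < w.length
    · rw [List.getElem?_eq_getElem hi]; simp; omega
    · rw [List.getElem?_eq_none (by omega)]; simp; omega

theorem valid_left {w : List α} {i : ℕ} : Valid Dir.left (tape w i) ↔ 0 < i := by
  cases i with
  | zero => simp [Valid, tape]
  | succ i =>
    have := tape_ne_lmark (w := w) (i := i)
    revert this
    generalize tape w (i + 1) = s
    intro hs
    rcases s with _ | a | _ <;> simp [Valid] at hs ⊢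

theorem valid_right {w : List α} {i : ℕ} : Valid Dir.right (tape w i) ↔ i < w.length + 1 := by
  have h1 := tape_eq_rmark_iff (w := w) (i := i)
  have h2 : Valid Dir.right (tape w i) ↔ tape w i ≠ .rmark := by
    generalize tape w i = s
    rcases s with _ | a | _ <;> simp [Valid]
  rw [h2, Ne, h1]; omega

theorem valid_stay {s : TapeSym α} : Valid Dir.stay s := by
  rcases s with _ | a | _ <;> simp [Valid]

theorem step_iff {B : TwoNFA α Q} {w : List α} {c d : Q × ℕ} :
    B.Step w c d ↔ ∃ e, (d.1, e) ∈ B.step c.1 (tape w c.2) ∧ Valid e (tape w c.2) ∧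
      ((e = .left ∧ c.2 = d.2 + 1) ∨ (e = .stay ∧ d.2 = c.2) ∨ (e = .right ∧ d.2 = c.2 + 1)) := by
  constructor
  · rintro (⟨h1, h2⟩ | ⟨h1, h2⟩ | ⟨h1, h2, h3⟩)
    · exact ⟨_, h1, valid_left.2 (by omega), Or.inl ⟨rfl, h2⟩⟩
    · exact ⟨_, h1, valid_stay, Or.inr (Or.inl ⟨rfl, h2⟩)⟩
    · exact ⟨_, h1, valid_right.2 (by omega), Or.inr (Or.inr ⟨rfl, h2⟩)⟩
  · rintro ⟨e, h1, h2, ⟨rfl, h3⟩ | ⟨rfl, h3⟩ | ⟨rfl, h3⟩⟩
    · exact Or.inl ⟨h1, h3⟩
    · exact Or.inr (Or.inl ⟨h1, h3⟩)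
    · exact Or.inr (Or.inr ⟨h1, h3, by have := valid_right.1 h2; omega⟩)

theorem exists_step {B : TwoNFA α Q} {w : List α} {c : Q × ℕ} {q : Q} {e : Dir}
    (h1 : (q, e) ∈ B.step c.1 (tape w c.2)) (h2 : Valid e (tape w c.2)) :
    ∃ d, B.Step w c d := by
  rcases e with _ | _ | _
  · have := valid_left.1 h2
    exact ⟨(q, c.2 - 1), step_iff.2 ⟨_, h1, h2, Or.inl ⟨rfl, by simp only; omega⟩⟩⟩
  · exact ⟨(q, c.2), step_iff.2 ⟨_, h1, h2, Or.inr (Or.inl ⟨rfl, rfl⟩)⟩⟩
  · exact ⟨(q, c.2 + 1), step_iff.2 ⟨_, h1, h2, Or.inr (Or.inr ⟨rfl, rfl⟩)⟩⟩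

theorem step_det {B : TwoNFA α Q} (hB : B.Deterministic) {w : List α} {c d d' : Q × ℕ}
    (h : B.Step w c d) (h' : B.Step w c d') : d = d' := by
  obtain ⟨e, h1, -, h2⟩ := step_iff.1 h
  obtain ⟨e', h1', -, h2'⟩ := step_iff.1 h'
  have := hB _ _ h1 h1'
  simp only [Prod.mk.injEq] at this
  obtain ⟨h3, rfl⟩ := this
  apply Prod.ext h3
  rcases h2 with ⟨rfl, h2⟩ | ⟨rfl, h2⟩ | ⟨rfl, h2⟩ <;> simp only [reduceCtorEq, false_and,
    true_and, false_or, or_false] at h2' <;> omega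

theorem compl_step_some {B : TwoNFA α Q} {w : List α} {c d : Q × ℕ} (hc : c.1 ∉ B.accept)
    (h : B.Step w c d) : (compl B).Step w (some c.1, c.2) (some d.1, d.2) := by
  obtain ⟨e, h1, h2, h3⟩ := step_iff.1 h
  refine step_iff.2 ⟨e, ?_, h2, h3⟩
  exact ⟨hc, Or.inl ⟨d.1, e, rfl, h1, h2⟩⟩

theorem compl_run_exists {B : TwoNFA α Q} {w : List α} (n : ℕ) : ∀ c : Q × ℕ,
    (∀ d t, B.Run w c d t → t ≤ n) → (∀ d t, B.Run w c d t → d.1 ∉ B.accept) →
    ∃ t ≤ n + 1, ∃ j, (compl B).Run w (some c.1, c.2) (none, j) t := by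
  induction n with
  | zero =>
    intro c h1 h2
    refine ⟨1, le_rfl, c.2, .cons (d := (none, c.2)) ?_ (.refl _)⟩
    refine step_iff.2 ⟨.stay, ⟨h2 c 0 (.refl c), Or.inr ⟨rfl, ?_⟩⟩, valid_stay,
      Or.inr (Or.inl ⟨rfl, rfl⟩)⟩
    intro q e hq hv
    obtain ⟨d, hd⟩ := exists_step hq hv
    have := h1 d 1 (.cons hd (.refl d))
    omega
  | succ n ih =>
    intro c h1 h2
    by_cases hs : ∃ d, B.Step w c d
    · obtain ⟨d, hd⟩ := hs
      obtain ⟨t, ht, j, hj⟩ := ih d
        (fun e t he => by have := h1 e (t + 1) (.cons hd he); omega)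
        (fun e t he => h2 e (t + 1) (.cons hd he))
      exact ⟨t + 1, by omega, j, .cons (compl_step_some (h2 c 0 (.refl c)) hd) hj⟩
    · refine ⟨1, by omega, c.2, .cons (d := (none, c.2)) ?_ (.refl _)⟩
      refine step_iff.2 ⟨.stay, ⟨h2 c 0 (.refl c), Or.inr ⟨rfl, ?_⟩⟩, valid_stay,
        Or.inr (Or.inl ⟨rfl, rfl⟩)⟩
      intro q e hq hv
      exact hs (exists_step hq hv)

theorem compl_sound {B : TwoNFA α Q} (hB : B.Deterministic) {w : List α} (t : ℕ) :
    ∀ (c : Q × ℕ) (j : ℕ), (compl B).Run w (some c.1, c.2) (none, j) t →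
      ∀ d s, B.Run w c d s → d.1 ∉ B.accept := by
  induction t with
  | zero =>
    intro c j hr
    cases hr
  | succ t ih =>
    intro c j hr
    cases hr with
    | @cons _ x _ _ hs hr =>
      obtain ⟨e, h1, h2, h3⟩ := step_iff.1 hs
      obtain ⟨hacc, h1 | h1⟩ := h1
      · obtain ⟨q, e', hx, hq, hv⟩ := h1
        simp only [Prod.mk.injEq] at hx
        obtain ⟨hx1, rfl⟩ := hx
        have hstep : B.Step w c (q, x.2) := step_iff.2 ⟨e, hq, hv, h3⟩
        have hx' : x = (some q, x.2) := Prod.ext hx1 rfl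
        rw [hx'] at hr
        intro d s hd
        cases hd with
        | refl => exact hacc
        | cons hs' hr' =>
          have := step_det hB hs' hstep
          subst this
          exact ih (q, x.2) j hr _ _ hr'
      · intro d s hd
        cases hd with
        | refl => exact hacc
        | cons hs' hr' =>
          obtain ⟨e', h4, h5, -⟩ := step_iff.1 hs'
          exact absurd h5 (h1.2 _ _ h4)

theorem compl_accepts {B : TwoNFA α Q} (hB : B.Deterministic) (T C : ℕ)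
    (hT : ∀ w, ¬ B.Accepts w → ∀ d t, B.Run w (B.start, 0) d t → t ≤ T * w.length + C) :
    (∀ w, (compl B).Accepts w ↔ ¬ B.Accepts w) ∧
    ∀ w, (compl B).Accepts w → ∃ t ≤ T * w.length + (C + 1), (compl B).AcceptsIn w t := by
  have h1 : ∀ w, (compl B).Accepts w → ¬ B.Accepts w := by
    rintro w ⟨t, ⟨x, j⟩, hx, hr⟩ ⟨s, d, hd, hr'⟩
    have hx' : x = none := hx
    subst hx'
    exact compl_sound hB t (B.start, 0) j hr d s hr' hd
  have h2 : ∀ w, ¬ B.Accepts w → ∃ t ≤ T * w.length + (C + 1), (compl B).AcceptsIn w t := by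
    intro w hw
    obtain ⟨t, ht, j, hr⟩ := compl_run_exists (B := B) (w := w) (T * w.length + C) (B.start, 0)
      (hT w hw) (fun d t hr hd => hw ⟨t, d, hd, hr⟩)
    exact ⟨t, by omega, (none, j), rfl, hr⟩
  exact ⟨fun w => ⟨h1 w, fun h => ⟨_, (h2 w h).choose_spec.2⟩⟩, fun w hw => h2 w (h1 w hw)⟩

theorem det_bound {h : ℕ} [Fintype Q] (B : TwoNFA (Letter h) Q) (hB : B.Deterministic)
    (hL : ∀ w, B.Accepts w ↔ (src h).Accepts w) (T C : ℕ)
    (hT : ∀ w, ¬ B.Accepts w → ∀ d t, B.Run w (B.start, 0) d t → t ≤ T * w.length + C) :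
    2 ^ h ≤ (Fintype.card Q + 2) ^ (2 * T + 1) := by
  obtain ⟨h1, h2⟩ := compl_accepts hB T C hT
  have := size_bound (compl B) (fun w => by rw [h1, hL]) T (C + 1) h2
  rwa [Fintype.card_option] at this

end Vale.Agent.H27.TW
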