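import Vale.Agent.H27.TW.Cut

/-!
# The source automaton
-/

namespace Vale.Agent.H27.TW

/-- the alphabet: two copies of the power set of an `h`-element set -/
abbrev Letter (h : ℕ) : Type := Finset (Fin h) ⊕ Finset (Fin h)

/-- The one-way automaton: guess a letter of the first kind and an element of it, check that
the next letter is of the second kind and contains that element.
States: `none` initial, `some none` accepting, `some (some i)`. -/
def src (h : ℕ) : TwoNFA (Letter h) (Option (Option (Fin h))) where
  start := none
  accept := {some none}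
  step p s := match p, s with
    | none, .lmark => {(none, .right)}
    | none, .letter (Sum.inl S) => {x | x = (none, .right) ∨ ∃ i ∈ S, x = (some (some i), .right)}
    | none, .letter (Sum.inr _) => {(none, .right)}
    | some (some i), .letter (Sum.inr T) => {x | i ∈ T ∧ x = (some none, .right)}
    | _, _ => ∅

/-- the language of the source automaton -/
def HasPair {h : ℕ} (w : List (Letter h)) : Prop :=
  ∃ (u v : List (Letter h)) (S T : Finset (Fin h)), w = u ++ Sum.inl S :: Sum.inr T :: v ∧
    ∃ i, i ∈ S ∧ i ∈ T

theorem src_oneWay (h : ℕ) : (src h).OneWay := by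
  intro p s q hq
  rcases p with _ | _ | i <;> rcases s with _ | (S | T) | _ <;> simp [src] at hq

theorem tape_letter {α : Type} {w : List α} {i : ℕ} {a : α} (h : w[i]? = some a) :
    tape w (i + 1) = .letter a := by
  simp [tape, h]

theorem tape_eq_letter {α : Type} {w : List α} {i : ℕ} {a : α} (h : tape w i = .letter a) :
    ∃ j, i = j + 1 ∧ w[j]? = some a := by
  cases i with
  | zero => simp [tape] at h
  | succ j =>
    refine ⟨j, rfl, ?_⟩
    simp only [tape] at h
    rcases hx : w[j]? with _ | x
    · rw [hx] at h; simp at h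
    · rw [hx] at h
      simp only [Option.elim_some, TapeSym.letter.injEq] at h
      rw [h]

theorem hasPair_of {h : ℕ} {w : List (Letter h)} {j : ℕ} {S T : Finset (Fin h)} {i : Fin h}
    (h1 : w[j]? = some (Sum.inl S)) (h2 : w[j + 1]? = some (Sum.inr T)) (hS : i ∈ S) (hT : i ∈ T) :
    HasPair w := by
  obtain ⟨hj, e1⟩ := List.getElem?_eq_some_iff.1 h1
  obtain ⟨hj', e2⟩ := List.getElem?_eq_some_iff.1 h2
  refine ⟨w.take j, w.drop (j + 2), S, T, ?_, i, hS, hT⟩
  rw [← e1, ← e2]
  rw [← List.drop_eq_getElem_cons hj', ← List.drop_eq_getElem_cons hj, List.take_append_drop]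

/-- soundness invariant -/
def Inv {h : ℕ} (w : List (Letter h)) (c : Option (Option (Fin h)) × ℕ) : Prop :=
  match c.1 with
  | none => True
  | some none => HasPair w
  | some (some i) => ∃ j S, c.2 = j + 2 ∧ w[j]? = some (Sum.inl S) ∧ i ∈ S

theorem inv_step {h : ℕ} {w : List (Letter h)} {c d : Option (Option (Fin h)) × ℕ}
    (hs : (src h).Step w c d) (hc : Inv w c) : Inv w d := by
  obtain ⟨p, x⟩ := c
  obtain ⟨q, y⟩ := d
  rcases hs with ⟨h1, -⟩ | ⟨h1, -⟩ | ⟨h1, h2, -⟩
  · exact absurd h1 (src_oneWay h p _ q)
  · exfalso
    revert h1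
    simp only
    generalize tape w x = s
    rcases p with _ | _ | i <;> rcases s with _ | (S | T) | _ <;> simp [src]
  · simp only at h1 h2
    subst h2
    rcases hp : p with _ | _ | i <;> rw [hp] at h1 hc <;>
      rcases hsym : tape w x with _ | (S | T) | _ <;> rw [hsym] at h1
    · simp [src] at h1; simp [Inv, h1]
    · simp only [src, Set.mem_ofPred_eq, Prod.mk.injEq, and_true] at h1
      rcases h1 with h1 | ⟨i, hi, h1⟩
      · simp [Inv, h1]
      · obtain ⟨j, hj, hw⟩ := tape_eq_letter hsym
        subst h1
        exact ⟨j, S, by simp [hj], hw, hi⟩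
    · simp [src] at h1; simp [Inv, h1]
    · simp [src] at h1
    · simp [src] at h1
    · simp [src] at h1
    · simp [src] at h1
    · simp [src] at h1
    · simp [src] at h1
    · simp [src] at h1
    · simp only [src, Set.mem_ofPred_eq, Prod.mk.injEq, and_true] at h1
      obtain ⟨hiT, h1⟩ := h1
      subst h1
      obtain ⟨j, S, hj, hw, hiS⟩ := hc
      obtain ⟨j', hj', hw'⟩ := tape_eq_letter hsym
      have : j' = j + 1 := by simp only at hj; omega
      subst this
      exact hasPair_of hw hw' hiS hiT
    · simp [src] at h1

theorem inv_run {h : ℕ} {w : List (Letter h)} {c d : Option (Option (Fin h)) × ℕ} {t : ℕ}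
    (hs : (src h).Run w c d t) (hc : Inv w c) : Inv w d := by
  induction hs with
  | refl => exact hc
  | cons h1 _ ih => exact ih (inv_step h1 hc)

theorem hasPair_of_accepts {h : ℕ} {w : List (Letter h)} (ha : (src h).Accepts w) :
    HasPair w := by
  obtain ⟨t, d, hd, hr⟩ := ha
  have := inv_run hr (c := ((src h).start, 0)) (by simp [Inv, src])
  have hd' : d.1 = some none := hd
  simpa [Inv, hd'] using this

theorem run_none {h : ℕ} {w : List (Letter h)} (n : ℕ) (hn : n ≤ w.length) :
    (src h).Run w (none, 0) (none, n + 1) (n + 1) := by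
  have key : ∀ (k m : ℕ), m + k ≤ w.length + 1 → (src h).Run w (none, m) (none, m + k) k := by
    intro k
    induction k with
    | zero => intro m _; exact .refl _
    | succ k ih =>
      intro m hm
      have h1 : (src h).Step w (none, m) (none, m + 1) := by
        refine Or.inr (Or.inr ⟨?_, rfl, by simp only; omega⟩)
        simp only
        rcases m with _ | m
        · simp [tape, src]
        · have hm' : m < w.length := by omega
          have h2 : w[m]? = some w[m] := List.getElem?_eq_getElem hm'
          rw [tape_letter h2]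
          rcases w[m] with S | T <;> simp [src]
      have h2 := ih (m + 1) (by omega)
      have h3 : m + 1 + k = m + (k + 1) := by omega
      rw [h3] at h2
      exact .cons h1 h2
  have := key (n + 1) 0 (by omega)
  simpa using this

theorem run_trans {α Q : Type} {M : TwoNFA α Q} {w : List α} {c d e : Q × ℕ} {s t : ℕ}
    (h1 : M.Run w c d s) (h2 : M.Run w d e t) : M.Run w c e (s + t) := by
  induction h1 with
  | refl => simpa using h2
  | cons h3 _ ih =>
    have := TwoNFA.Run.cons h3 (ih h2)
    rwa [show ∀ a b : ℕ, a + 1 + b = a + b + 1 by intros; omega]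

theorem accepts_of_hasPair {h : ℕ} {w : List (Letter h)} (hp : HasPair w) :
    (src h).Accepts w := by
  obtain ⟨u, v, S, T, hw, i, hS, hT⟩ := hp
  have h0 : (src h).Run w (none, 0) (none, u.length + 1) (u.length + 1) :=
    run_none _ (by simp [hw])
  have e1 : w[u.length]? = some (Sum.inl S) := by simp [hw]
  have e2 : w[u.length + 1]? = some (Sum.inr T) := by
    rw [hw, List.getElem?_append_right (by omega)]; simp
  have hl : u.length + 2 ≤ w.length := by simp [hw]
  have h1 : (src h).Step w (none, u.length + 1) (some (some i), u.length + 2) := by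
    refine Or.inr (Or.inr ⟨?_, rfl, by simp only; omega⟩)
    simp only
    rw [tape_letter e1]
    simp [src, hS]
  have h2 : (src h).Step w (some (some i), u.length + 2) (some none, u.length + 3) := by
    refine Or.inr (Or.inr ⟨?_, rfl, by simp only; omega⟩)
    simp only
    rw [tape_letter e2]
    simp [src, hT]
  exact ⟨_, (some none, u.length + 3), rfl, run_trans h0 (.cons h1 (.cons h2 (.refl _)))⟩

theorem src_accepts_iff {h : ℕ} {w : List (Letter h)} : (src h).Accepts w ↔ HasPair w :=
  ⟨hasPair_of_accepts, accepts_of_hasPair⟩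

end Vale.Agent.H27.TW
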